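import Vale.Agent.P095.Amen.Letters.Main
import Vale.Agent.P095.All.Orbit

/-!
# P095 letters for an action: an invariant phase and the arcs cut from it
-/

namespace Vale.Agent.P095.All.Letters

open Vale.Agent.P101.KR Vale.Agent.P095.Amen Vale.Agent.P095.Amen.Letters

noncomputable section

variable {G : Type} [Group G] [Countable G] {F : Type} [CStarAlgebra F]
  {β : G → F ≃⋆ₐ[ℂ] F} {S₀ : Finset G}

omit [Group G] [Countable G] in
/-- A fixed element has a fixed image under a restricted equivariant map. -/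
theorem map_inclusion_fix {A B : StarSubalgebra ℂ F} (h : A ≤ B) (f : B →⋆ₐ[ℂ] F)
    (σ : F ≃⋆ₐ[ℂ] F) (he : ∀ x y : B, σ x = y → σ (f x) = f y) (T : A) (hT : σ T = T) :
    σ (f.comp (StarSubalgebra.inclusion h) T) = f.comp (StarSubalgebra.inclusion h) T :=
  he (StarSubalgebra.inclusion h T) (StarSubalgebra.inclusion h T) hT

/-- Copies of a bank that send a fixed element to fixed elements. -/
theorem exists_fixed_copies (hS : Setting β S₀) {s : Set F} (hs : s.Countable) {T : Cl s}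
    (hT : ∀ g, β g T = T) (R : ℕ) :
    ∃ κ : Copies (Cl s) F R, ∀ j g, β g (κ.hom j T) = κ.hom j T := by
  obtain ⟨κ⟩ := exists_copies_fin hS hs R
  exact ⟨⟨fun i => (κ.hom i).comp (StarSubalgebra.inclusion (Cl_mono (subset_orbitAll hS.mul s))),
    fun i j hij a b => κ.comm i j hij _ _⟩, fun j g => map_inclusion_fix (Cl_mono (subset_orbitAll hS.mul s)) (κ.hom j) (β g) (κ.equiv j g) T (hT g)⟩

/-- A sum of equivariant banks is a fixed phase. -/
theorem exists_phase_all (hM : MixtureTarget) (hA : AmpScalarTarget) (hS : Setting β S₀) {c : ℝ}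
    (hc : 0 < c) (hc3 : c ≤ 1 / 3)
    (hB : ∀ θ : ℝ, 0 < θ → ∃ B : Bank (StarAlgEquiv.refl ℂ F) c θ, ∀ g, β g B.T = B.T)
    {T : ℝ} (hT : 0 < T) :
    ∃ (lam : ℝ) (S : F), Phase (StarAlgEquiv.refl ℂ F) lam T S ∧ ∀ g, β g S = S := by
  obtain ⟨R, lam, hlam, hR⟩ := hA c T hc hc3 hT
  obtain ⟨B, hBfix⟩ := hB (T * (1 - c - c) / (3 * R + 3)) (by
    have : 0 < 1 - c - c := by linarith
    positivity)
  obtain ⟨κR, hκ⟩ := exists_fixed_copies hS B.countable hBfix R
  set S : F := ∑ j, κR.hom j B.T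
  refine ⟨lam, S, ⟨rfl, ?_, fun m h₁ h₂ h1 h12 h2 => ?_⟩, fun g => ?_⟩
  rotate_left 2
  · simp only [S, map_sum]
    exact Finset.sum_congr rfl fun j _ => hκ j g
  · refine isSelfAdjoint_sum _ fun j _ => IsSelfAdjoint.map ?_ (κR.hom j)
    obtain ⟨d, hd⟩ := B.T_nonneg
    refine Subtype.ext ?_
    show star (B.T : F) = B.T
    rw [sub_zero] at hd
    rw [hd, star_mul, star_star]
  set τ := min (1 / 8 : ℝ) (T / lam / (2 * (R + 1)))
  have hτ : 0 < τ := lt_min (by norm_num) (by positivity)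
  have hτ4 : τ < 1 / 4 := lt_of_le_of_lt (min_le_left _ _) (by norm_num)
  have hRτ : (R : ℝ) * τ < T / lam := by
    refine lt_of_le_of_lt (mul_le_mul_of_nonneg_left (min_le_right _ _) (by positivity)) ?_
    rw [← mul_div_assoc, div_lt_iff₀ (by positivity)]
    nlinarith [div_pos hT hlam, (Nat.cast_nonneg R : (0 : ℝ) ≤ R)]
  set E : Set ℝ := {s | ∃ k : ℤ, m - (h₁ - T) ≤ lam * s - k ∧ lam * s - k ≤ m + (h₁ - T)}
  have hψ : ∀ g ∈ E, ∀ t, |t - g| ≤ T / lam → 1 / 2 ≤ arcFn lam m h₁ h₂ t := by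
    rintro g ⟨k, hk1, hk2⟩ t ht
    rw [arcFn_eq_one (by linarith) h12 h2 (k := k) ?_]
    · norm_num
    rw [abs_le] at ht ⊢
    have e : lam * (T / lam) = T := by field_simp
    constructor <;>
      nlinarith [mul_le_mul_of_nonneg_left ht.1 hlam.le, mul_le_mul_of_nonneg_left ht.2 hlam.le]
  obtain ⟨hval, hfull⟩ := hM F B.s R κR B.T B.eh B.el B.wh B.wl c c
    (T * (1 - c - c) / (3 * R + 3)) τ (T / lam) B.δ E (arcFn lam m h₁ h₂) B.countable B.T_nonneg
    B.T_le B.eh_nonneg B.el_nonneg hτ hτ4 B.δ_pos hc.le hc.le (by linarith)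
    (by have : 0 < 1 - c - c := (by linarith); positivity) hRτ B.wh_eq (B.wh_top τ hτ hτ4) B.wl_eq
    (B.wl_low τ hτ hτ4) B.values (continuous_arcFn ..) (arcFn_range lam m h₁ h₂) hψ
  obtain ⟨hsc, n, hn, k, hk⟩ := hR (m - (h₁ - T)) (m + (h₁ - T)) (by linarith) (by linarith)
    (by linarith)
  refine ⟨?_, hfull B.eh_full B.el_full ⟨fun j => if (j : ℕ) < n then 1 else 0, k, ?_⟩⟩
  · obtain ⟨s, hs, hpos, hd⟩ := hval (2 * (h₁ - T) - T) fun v hv =>
      le_of_eq_of_le (by ring) (hsc v hv)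
    refine ⟨s, hs, hpos, fun d => le_trans ?_ (hd d)⟩
    have : 3 * (R : ℝ) * (T * (1 - c - c) / (3 * R + 3)) / (1 - c - c) ≤ T := by
      have h3 : 0 < 1 - c - c := by linarith
      rw [div_le_iff₀ h3, mul_div_assoc', div_le_iff₀ (by positivity)]
      nlinarith [mul_pos hT h3, (Nat.cast_nonneg R : (0 : ℝ) ≤ R)]
    linarith
  · have e : (∑ j : Fin R, (((if (j : ℕ) < n then 1 else 0 : Fin 2) : ℕ) : ℝ)) = n := by
      rw [Fin.sum_univ_eq_sum_range fun i => (((if i < n then 1 else 0 : Fin 2) : ℕ) : ℝ)]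
      rw [← Finset.sum_range_add_sum_Ico _ hn,
        Finset.sum_congr rfl (fun i hi => by rw [if_pos (Finset.mem_range.1 hi)] :
          ∀ i ∈ Finset.range n, (((if i < n then 1 else 0 : Fin 2) : ℕ) : ℝ) = ((1 : Fin 2) : ℕ)),
        Finset.sum_eq_zero (s := Finset.Ico n R) fun i hi => by
          rw [if_neg (not_lt.2 (Finset.mem_Ico.1 hi).1)]; simp]
      simp
    simpa only [e] using hk

/-- Amplified letters fixed by the action, from the coin, comparison, mixtures and the scalar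
lemma. -/
theorem letters_of (hT : All.CoinTarget) (hC : CompareTarget) (hM : MixtureTarget)
    (hA : AmpScalarTarget) : All.LettersTarget := by
  intro G _ _ F _ β S₀ hS α θ hθ hθα hα
  let _ : PartialOrder F := CStarAlgebra.spectralOrder F
  have : StarOrderedRing F := CStarAlgebra.spectralOrderedRing F
  obtain ⟨a, b, hfix, ha, hb, ha1, hb1, hab, haf, hbf⟩ := hT G F β S₀ hS
  obtain ⟨c, hc, hc3, hB⟩ := exists_bank hC _ hS.toId a b rfl rfl ha hb ha1 hb1 hab haf hbf
  obtain ⟨lam, S, hP, hPfix⟩ := exists_phase_all hM hA hS hc hc3 (T := θ / 20)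
    (fun r hr => by
      obtain ⟨B, hB⟩ := hB r hr
      exact ⟨B, fun g => hB _ (hfix g).1 (hfix g).2⟩) (by positivity)
  obtain ⟨L, hL⟩ := letters_of_phase hθ hθα hα hP
  exact ⟨{
    s := L.s
    s' := L.s'
    m := L.m
    e := L.e
    c := L.c
    fix := fun u hu g => hL _ (hPfix g) u hu
    pos := L.pos
    comm := L.comm
    s'_s := L.s'_s
    e_m := L.e_m
    s'_e := L.s'_e
    s'_c := L.s'_c
    e_c := L.e_c
    s_ge := L.s_ge
    s'_le := L.s'_le
    m_ge := L.m_ge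
    s_full := L.s_full
    m_full := L.m_full
    c_full := L.c_full }⟩

end

end Vale.Agent.P095.All.Letters
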